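import Vale.Agent.P144E.Basic
import Vale.Agent.P144D.Geo.B

/-!
Reentrant corners: the dug sets have the shape `ShapeW`.
-/

namespace Vale.Agent.P144Z

open Finset GeoA

namespace Ge3

variable {M : ℕ} [NeZero M] {I : Finset (Tor M)} {α κ : ℝ} {y : Tor M} {R t : ℕ}

/-- Within distance `R` of `y` the set is a dug tip, seen from the point `y₀`. -/
def TipAt (I : Finset (Tor M)) (α κ : ℝ) (t R : ℕ) (y : Tor M) (y₀ : ℤ × ℤ) : Prop :=
  ∃ S₁ S₂ ν₁ ν₂, TipS S₁ S₂ ν₁ ν₂ α κ ∧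
    ∀ v, zd v 0 ≤ R → (y + prj M v ∈ I ↔ y₀ + v ∈ Dug S₁ S₂ t)

theorem mem_image_iff {Λ : Finset (ℤ × ℤ)} {T r : ℕ} (hΛ : ∀ v ∈ Λ, zd v 0 ≤ T)
    (hM : 2 * (T + r) + 1 ≤ M) (z : Tor M) {v : ℤ × ℤ} (hv : zd v 0 ≤ r) :
    z + prj M v ∈ Λ.image (prj M) ↔ lft z + v ∈ Λ := by
  rw [mem_image]
  constructor
  · rintro ⟨u, hu, e⟩
    have h7 := hΛ u hu
    simp only [zd, Prod.fst_zero, Prod.snd_zero, sub_zero, max_le_iff] at h7 hv
    have h8 : lft z = u - v := by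
      rw [← lft_prj (M := M) (v := u - v), G.prj_sub, e, add_sub_cancel_right] <;>
        simp only [Prod.fst_sub, Prod.snd_sub, Int.abs_eq_natAbs] <;> omega
    rwa [h8, sub_add_cancel]
  · intro hu
    exact ⟨_, hu, by rw [G.prj_add, prj_lft]⟩

/-- The two local descriptions of the dug set. -/
theorem two_charts {Λ P : Finset (ℤ × ℤ)} {r T : ℕ} (h : RawZ Λ P α κ r) (hΛ : ∀ v ∈ Λ, zd v 0 ≤ T)
    (hM : 2 * (T + r) + 1 ≤ M) (hR : 2 * R + 2 * t ≤ r) (y : Tor M) :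
    ShapeAt ((dig Λ P t).image (prj M)) α κ R y ∨ ∃ p ∈ P, ∃ y₀, tdist y (prj M p) ≤ zd y₀ 0 ∧
      TipAt ((dig Λ P t).image (prj M)) α κ t R y y₀ := by
  have hm : ∀ v, zd v 0 ≤ R → (y + prj M v ∈ (dig Λ P t).image (prj M) ↔
      lft y + v ∈ Λ ∧ ∀ p ∈ P, t < zd (lft y + v) p) := fun v hv =>
    (mem_image_iff (fun u hu => hΛ u (mem_dig.1 hu).1) hM y (hv.trans (by omega))).trans mem_dig
  have hd : ∀ p, tdist y (prj M p) ≤ zd (lft y - p) 0 := by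
    intro p
    have := tdist_prj_le (M := M) (lft y) p
    rw [prj_lft] at this
    simpa [zd] using this
  have he : ∀ p v : ℤ × ℤ, lft y + v = p + (lft y - p + v) := fun p v => by abel
  generalize lft y = z at hm hd he
  by_cases h1 : ∃ p ∈ P, zd z p ≤ R + t
  · obtain ⟨p, hp, h2⟩ := h1
    obtain ⟨S₁, S₂, ν₁, ν₂, a1, a2⟩ := h.tip p hp
    refine Or.inr ⟨p, hp, z - p, hd p, S₁, S₂, ν₁, ν₂, a1, fun v hv => (hm v hv).trans ?_⟩
    have h3 : zd (z - p + v) 0 = zd (z + v) p := by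
      simp only [zd, Prod.fst_add, Prod.snd_add, Prod.fst_sub, Prod.snd_sub, Prod.fst_zero,
        Prod.snd_zero]
      omega
    have h4 : zd (z + v) p ≤ 2 * R + t := by
      simp only [zd, Prod.fst_add, Prod.snd_add, Prod.fst_zero, Prod.snd_zero] at h2 hv ⊢
      omega
    rw [he p v, a2 _ (by omega), ← he p v]
    refine and_congr_right fun _ => ⟨fun k => h3 ▸ k p hp, fun k p' hp' => ?_⟩
    by_cases e : p = p'
    · exact e ▸ h3 ▸ k
    · have h5 := h.sep p hp p' hp' e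
      have h6 := zd_tri p (z + v) p'
      rw [zd_comm p (z + v)] at h6
      omega
  · have h2 : ∀ v, zd v 0 ≤ R → ∀ p ∈ P, t < zd (z + v) p := by
      intro v hv p hp
      have h3 : ¬ zd z p ≤ R + t := fun k => h1 ⟨p, hp, k⟩
      simp only [zd, Prod.fst_add, Prod.snd_add, Prod.fst_zero, Prod.snd_zero] at h3 hv ⊢
      omega
    rcases h.chart z with ⟨S₁, S₂, ν₁, ν₂, a1, a2, a3, a4, a5, a6⟩ |
      ⟨p, hp, ρ, a1, S₁, S₂, ν₁, ν₂, a2, a3⟩
    · exact Or.inl ⟨S₁, S₂, ν₁, ν₂, a1, a2, a3, a4, a5, fun v hv =>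
        ((hm v hv).trans (and_iff_left (h2 v hv))).trans (a6 v (by omega))⟩
    · refine Or.inr ⟨p, hp, z - p, hd p, S₁, S₂, ν₁, ν₂, a2, fun v hv => ?_⟩
      have h3 : zd (z - p + v) 0 = zd (z + v) p := by
        simp only [zd, Prod.fst_add, Prod.snd_add, Prod.fst_sub, Prod.snd_sub, Prod.fst_zero,
          Prod.snd_zero]
        omega
      have h4 : zd (z + v) p ≤ ρ := by
        simp only [zd, Prod.fst_add, Prod.snd_add, Prod.fst_zero, Prod.snd_zero] at a1 hv ⊢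
        omega
      rw [hm v hv, and_iff_left (h2 v hv), he p v, a3 _ (by omega)]
      exact (and_iff_left (h3 ▸ h2 v hv p hp)).symm

theorem cork_of {f : Tor M} {s n : ℕ} {w : ℤ × ℤ} (hw : zd w 0 ≤ n)
    (h : ∀ u, zd u 0 ≤ s → f + prj M (w + u) ∉ I) :
    ∃ x, tdist x f ≤ n ∧ ∀ g, tdist g x ≤ s → g ∉ I := by
  refine ⟨f + prj M w, (tdist_le_zd f w).trans hw, fun g hg => ?_⟩
  have := h (lft (g - (f + prj M w))) ((zd_lft _ _).trans_le hg)
  rwa [G.prj_add, ← add_assoc, G.add_prj_lft] at this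

theorem cork_shape {f : Tor M} (h : ShapeAt I α (1 / 8) R f) (hf : f ∉ I) {s : ℕ}
    (hs : 4 * s ≤ R) : ∃ x, tdist x f ≤ 3 * s ∧ ∀ g, tdist g x ≤ s → g ∉ I := by
  obtain ⟨S, ν, n1, n2, n3, n4⟩ := h.exists_out hf (by simp [tdist_self])
  obtain ⟨k, hk⟩ := B5a2.exists_cone n1 n2
  have h0 : lft (f - f) = 0 := by simp [lft]
  rw [h0] at n3
  have key : ∀ v, zd v 0 ≤ R → B5a2.Cn k (-v) → f + prj M v ∉ I := fun v hv hc =>
    n4 v hv fun hS => n3 (by simpa using hk v hS _ hc)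
  fin_cases k
  · refine cork_of (w := (-(3 * s : ℤ), 0)) (by simp only [zd]; simp; omega) fun u hu => key _ ?_ ?_
    · simp only [zd, Prod.fst_add, Prod.snd_add, Prod.fst_zero, Prod.snd_zero] at hu ⊢
      omega
    · show 3 * |(-(((-(3 * s : ℤ), 0) : ℤ × ℤ) + u)).2| ≤ 2 * (-(((-(3 * s : ℤ), 0) : ℤ × ℤ) + u)).1
      simp only [zd, Prod.fst_add, Prod.snd_add, Prod.fst_zero, Prod.snd_zero, Prod.fst_neg,
        Prod.snd_neg, Int.abs_eq_natAbs] at hu ⊢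
      omega
  · refine cork_of (w := ((3 * s : ℤ), 0)) (by simp only [zd]; simp; omega) fun u hu => key _ ?_ ?_
    · simp only [zd, Prod.fst_add, Prod.snd_add, Prod.fst_zero, Prod.snd_zero] at hu ⊢
      omega
    · show 3 * |(-((((3 * s : ℤ), 0) : ℤ × ℤ) + u)).2| ≤ -(2 * (-((((3 * s : ℤ), 0) : ℤ × ℤ) + u)).1)
      simp only [zd, Prod.fst_add, Prod.snd_add, Prod.fst_zero, Prod.snd_zero, Prod.fst_neg,
        Prod.snd_neg, Int.abs_eq_natAbs] at hu ⊢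
      omega
  · refine cork_of (w := (0, -(3 * s : ℤ))) (by simp only [zd]; simp; omega) fun u hu => key _ ?_ ?_
    · simp only [zd, Prod.fst_add, Prod.snd_add, Prod.fst_zero, Prod.snd_zero] at hu ⊢
      omega
    · show 3 * |(-(((0, -(3 * s : ℤ)) : ℤ × ℤ) + u)).1| ≤ 2 * (-(((0, -(3 * s : ℤ)) : ℤ × ℤ) + u)).2
      simp only [zd, Prod.fst_add, Prod.snd_add, Prod.fst_zero, Prod.snd_zero, Prod.fst_neg,
        Prod.snd_neg, Int.abs_eq_natAbs] at hu ⊢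
      omega
  · refine cork_of (w := (0, (3 * s : ℤ))) (by simp only [zd]; simp; omega) fun u hu => key _ ?_ ?_
    · simp only [zd, Prod.fst_add, Prod.snd_add, Prod.fst_zero, Prod.snd_zero] at hu ⊢
      omega
    · show 3 * |(-(((0, (3 * s : ℤ)) : ℤ × ℤ) + u)).1| ≤ -(2 * (-(((0, (3 * s : ℤ)) : ℤ × ℤ) + u)).2)
      simp only [zd, Prod.fst_add, Prod.snd_add, Prod.fst_zero, Prod.snd_zero, Prod.fst_neg,
        Prod.snd_neg, Int.abs_eq_natAbs] at hu ⊢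
      omega

theorem cork_tip {f : Tor M} {y₀ : ℤ × ℤ} {D : Set (ℤ × ℤ)}
    (h : ∀ v, zd v 0 ≤ R → (f + prj M v ∈ I ↔ y₀ + v ∈ D)) {s n : ℕ} (hs : n + s ≤ R)
    {x : ℤ × ℤ} (h1 : zd x y₀ ≤ n) (h2 : ∀ g, zd g x ≤ s → g ∉ D) :
    ∃ x, tdist x f ≤ n ∧ ∀ g, tdist g x ≤ s → g ∉ I := by
  refine cork_of (w := x - y₀) (by simpa [zd] using h1) fun u hu k => h2 _ ?_ ((h _ ?_).1 k)
  · simp only [zd, Prod.fst_add, Prod.snd_add, Prod.fst_zero, Prod.snd_zero, Prod.fst_sub,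
      Prod.snd_sub] at hu ⊢
    omega
  · simp only [zd, Prod.fst_add, Prod.snd_add, Prod.fst_zero, Prod.snd_zero, Prod.fst_sub,
      Prod.snd_sub] at hu h1 ⊢
    omega

theorem conn_tip {y₀ : ℤ × ℤ} {D : Set (ℤ × ℤ)}
    (h : ∀ v, zd v 0 ≤ R → (y + prj M v ∈ I ↔ y₀ + v ∈ D)) {s n : ℕ} (hs : s ≤ R) (hn : n ≤ R)
    (hc : ∀ f f' : ℤ × ℤ, zd f y₀ ≤ s → zd f' y₀ ≤ s → f ∉ D → f' ∉ D →
      Rch (fun v => v ∉ D ∧ zd v y₀ ≤ n) f f') : ConnB I y s n := by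
  intro f f' hf hf' hI hI'
  have key : ∀ g, tdist g y ≤ s → g ∉ I → zd (y₀ + lft (g - y)) y₀ ≤ s ∧ y₀ + lft (g - y) ∉ D := by
    intro g hg hgI
    rw [← zd_lft] at hg
    refine ⟨by simpa [zd] using hg, fun k => hgI ?_⟩
    have := (h _ (hg.trans hs)).2 k
    rwa [G.add_prj_lft] at this
  have p4 := hc _ _ (key f hf hI).1 (key f' hf' hI').1 (key f hf hI).2 (key f' hf' hI').2
  have e : ∀ g, y + prj M (y₀ + lft (g - y) - y₀) = g := fun g => by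
    rw [add_sub_cancel_left, G.add_prj_lft]
  rw [← e f, ← e f']
  refine Relation.ReflTransGen.lift (fun x => y + prj M (x - y₀)) ?_ _ _ p4
  rintro u w ⟨q1, q2, q3⟩
  have o : ∀ u, u ∉ D ∧ zd u y₀ ≤ n → tdist (y + prj M (u - y₀)) y ≤ n ∧ y + prj M (u - y₀) ∉ I := by
    intro u q
    have h1 : zd (u - y₀) 0 ≤ n := by simpa [zd] using q.2
    refine ⟨(tdist_le_zd y _).trans h1, fun k => q.1 ?_⟩
    have := (h _ (h1.trans hn)).1 k
    rwa [add_sub_cancel] at this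
  refine ⟨(o u q1).1, (o w q2).1, (o u q1).2, (o w q2).2, ?_⟩
  beta_reduce
  rcases q3 with rfl | rfl | rfl | rfl
  · exact ⟨0, Or.inl (by rw [add_sub_right_comm, G.prj_add, G.uv_zero, add_assoc])⟩
  · exact ⟨1, Or.inl (by rw [add_sub_right_comm, G.prj_add, G.uv_one, add_assoc])⟩
  · exact ⟨0, Or.inr (by rw [add_sub_right_comm]; simp [uv, prj, add_assoc])⟩
  · exact ⟨1, Or.inr (by rw [add_sub_right_comm]; simp [uv, prj, add_assoc])⟩

theorem epi_shift {S : Set (ℤ × ℤ)} {ν : ℂ} (h : Epi S ν κ) (y₀ : ℤ × ℤ) :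
    Epi {v | y₀ + v ∈ S} ν κ := fun u hu v hv => by
  have := h _ hu v hv
  rwa [add_assoc] at this

open B5a2 in
theorem tr_tip {y₀ : ℤ × ℤ} (h : TipAt I α (1 / 8) t R y y₀) {ρ : ℕ} (hρ : ρ + 2 ≤ R) :
    TrB I y ρ (2 * t + 25) := by
  classical
  obtain ⟨S₁, S₂, ν₁, ν₂, hS, hI⟩ := h
  obtain ⟨H₁, V₁, a1, b1, c1⟩ := tr_one hS.n₁ (epi_shift hS.e₁ y₀) y
  obtain ⟨H₂, V₂, a2, b2, c2⟩ := tr_one hS.n₂ (epi_shift hS.e₂ y₀) y
  set H₃ : Finset (Tor M) := univ.filter fun x => zd (y₀ + lft (x - y)) 0 ≤ t + 2 with hH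
  have b3 : ∀ u, (H₃.filter fun x => x.2 = u).card ≤ 2 * t + 5 := by
    intro u
    have := card_le_card_of_injOn (s := H₃.filter fun x => x.2 = u)
      (t := Icc (-y₀.1 - (t + 2 : ℕ)) (-y₀.1 + (t + 2 : ℕ))) (fun x => (lft (x - y)).1)
      (fun x hx => by
        have h1 := (mem_filter.1 (mem_filter.1 hx).1).2
        simp only [zd, Prod.fst_add, Prod.snd_add, Prod.fst_zero, Prod.snd_zero] at h1
        exact mem_coe.2 (mem_Icc.2 (by beta_reduce; omega)))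
      (fun x hx x' hx' e => Prod.ext (sub_left_injective (ZMod.valMinAbs_inj.1 e))
        ((mem_filter.1 hx).2.trans (mem_filter.1 hx').2.symm))
    rw [Int.card_Icc] at this
    omega
  refine ⟨H₁ ∪ H₂ ∪ H₃, V₁ ∪ V₂, fun x hx hn => ?_, fun u => ?_, fun u => ?_⟩
  · obtain ⟨⟨f, hf, hfx⟩, f', hf', hfx'⟩ := hn
    obtain ⟨w, rfl, w1, w2⟩ := exists_rep y x f
    obtain ⟨w', rfl, w1', w2'⟩ := exists_rep y x f'
    have h1 := (hI w (by omega)).1 hf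
    have h2 := mt (hI w' (by omega)).2 hf'
    simp only [mem_union]
    rcases not_and_or.1 h2 with h2 | h2
    · rcases h1.1 with h3 | h3
      · exact (a1 x ⟨⟨w, h3, w1 ▸ hfx⟩, w', fun k => h2 (Or.inl k), w1' ▸ hfx'⟩).imp
          (fun k => Or.inl (Or.inl k)) Or.inl
      · exact (a2 x ⟨⟨w, h3, w1 ▸ hfx⟩, w', fun k => h2 (Or.inr k), w1' ▸ hfx'⟩).imp
          (fun k => Or.inl (Or.inr k)) Or.inr
    · refine Or.inl (Or.inr (mem_filter.2 ⟨mem_univ _, ?_⟩))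
      rw [← w1'] at hfx'
      simp only [zd, Prod.fst_add, Prod.snd_add, Prod.fst_zero, Prod.snd_zero] at h2 hfx' ⊢
      omega
  · rw [filter_union, filter_union]
    have := card_union_le (H₁.filter (fun x => x.2 = u) ∪ H₂.filter fun x => x.2 = u)
      (H₃.filter fun x => x.2 = u)
    have := card_union_le (H₁.filter fun x => x.2 = u) (H₂.filter fun x => x.2 = u)
    have := b1 u
    have := b2 u
    have := b3 u
    omega
  · rw [filter_union]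
    have := card_union_le (V₁.filter fun x => x.1 = u) (V₂.filter fun x => x.1 = u)
    have := c1 u
    have := c2 u
    omega

omit [NeZero M] in
theorem TipAt.mono {y₀ : ℤ × ℤ} {κ' : ℝ} (h : TipAt I α κ t R y y₀) (hκ : κ ≤ κ') :
    TipAt I α κ' t R y y₀ := by
  obtain ⟨S₁, S₂, ν₁, ν₂, h1, h2⟩ := h
  exact ⟨S₁, S₂, ν₁, ν₂, h1.mono hκ, h2⟩

end Ge3

open Ge3 in
/-- The dug sets have the shape `ShapeW`. -/
theorem digStmt_of (hF : TipFar) (hC : TipConn) : DigStmt := by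
  intro α hα
  obtain ⟨N₁, κ₁, hκ₁, hF⟩ := hF α hα
  obtain ⟨t₀, κ₂, hκ₂, hC⟩ := hC α hα
  obtain ⟨N₂, hC⟩ := hC (t₀ + 1) (Nat.le_succ _)
  obtain ⟨C, -, hc⟩ := conn_of_shape
  set t := t₀ + 1 with ht
  set N₃ := ⌈(C : ℝ) / α⌉₊ with hN₃
  have hN₃' : (C : ℝ) ≤ α * N₃ := by
    have := (div_le_iff₀ hα).1 (Nat.le_ceil ((C : ℝ) / α))
    rwa [mul_comm] at this
  clear_value N₃
  obtain ⟨N, n1, n2, n3, n4⟩ : ∃ N, N₁ ≤ N ∧ N₂ + 1 ≤ N ∧ N₃ ≤ N ∧ 2 * t + 25 ≤ N :=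
    ⟨N₁ + N₂ + N₃ + 2 * t + 25, by omega, by omega, by omega, by omega⟩
  refine ⟨t, N, 8 * (t + 2), by omega, by omega, min (min κ₁ κ₂) (min (1 / 8) (α / 16)),
    by positivity, fun κ hκ hκ' Λ P r T h hQ hΛ => ?_⟩
  simp only [le_min_iff] at hκ'
  obtain ⟨⟨k1, k2⟩, k3, k4⟩ := hκ'
  have hP : ∀ p ∈ P, zd p 0 ≤ T + 2 ∧ ∃ v, v ∉ Λ ∧ zd v p ≤ t := by
    intro p hp
    obtain ⟨S₁, S₂, ν₁, ν₂, a1, a2⟩ := h.tip p hp
    obtain ⟨⟨f, f1, f2⟩, -⟩ := a1.w₁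
    obtain ⟨v, v1, v2, v3⟩ := (hC κ hκ.le k2 _ _ _ _ a1).1
    refine ⟨?_, p + v, fun k => ((a2 v (by omega)).1 k).elim v2 v3, ?_⟩
    · have := hΛ _ ((a2 f (by omega)).2 (Or.inl f1))
      simp only [zd, Prod.fst_add, Prod.snd_add, Prod.fst_zero, Prod.snd_zero] at this f2 ⊢
      omega
    · simp only [zd, Prod.fst_add, Prod.snd_add, Prod.fst_zero, Prod.snd_zero] at v1 ⊢
      omega
  refine ⟨hP, fun M _ hM => ?_⟩
  have hr : r / (8 * (t + 2)) ≤ r / 8 := Nat.div_le_div_left (by omega) (by omega)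
  generalize r / (8 * (t + 2)) = r' at hr
  have hl := fun y : Tor M => two_charts (t := t) (R := r / 4) h hΛ (by omega) (by omega) y
  have hm : ∀ {a b : ℕ} (s : ℕ), a ≤ b → a * (s + 1) ≤ b * (s + 1) := fun s k =>
    Nat.mul_le_mul_right _ k
  refine ⟨⟨fun y s hs => ?_, fun f hf s hs => ?_, fun y => ?_⟩, ?_, fun y ρ hρ hy => ?_⟩
  · rcases hl y with h1 | ⟨p, -, y₀, -, S₁, S₂, ν₁, ν₂, a1, a2⟩
    · refine hc M _ α κ _ y h1 hα (by linarith) (by omega) s _ ?_ (by omega)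
      have h2 : (N₃ : ℝ) ≤ N := by exact_mod_cast n3
      have h3 : (C : ℝ) ≤ α * N := hN₃'.trans (mul_le_mul_of_nonneg_left h2 hα.le)
      push_cast
      rw [← mul_assoc]
      exact mul_le_mul_of_nonneg_right h3 (by positivity)
    · have h2 := hm s (show N₂ ≤ N by omega)
      have h3 := hm s (show 1 ≤ N by omega)
      exact (conn_tip a2 (by omega) (by omega)
        fun f f' => (hC κ hκ.le k2 _ _ _ _ a1).2.2 y₀ f f' s).mono' le_rfl h2
  · rcases hl f with h1 | ⟨p, -, y₀, -, S₁, S₂, ν₁, ν₂, a1, a2⟩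
    · have h3 := hm s (show 4 ≤ N by omega)
      obtain ⟨x, x1, x2⟩ := cork_shape (h1.mono k3 le_rfl) hf (s := s) (by omega)
      exact ⟨x, by omega, x2⟩
    · have h2 := hm s n2
      have h3 : y₀ ∉ Dug S₁ S₂ t := fun k => hf (by
        have := (a2 0 (by simp [zd])).2 (by rwa [add_zero])
        rwa [G.prj_zero, add_zero] at this)
      obtain ⟨x, x1, x2⟩ := (hC κ hκ.le k2 _ _ _ _ a1).2.1 y₀ s h3
      rw [add_mul] at h2
      obtain ⟨x', x3, x4⟩ := cork_tip a2 (by omega) x1 x2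
      exact ⟨x', by omega, x4⟩
  · rcases hl y with h1 | ⟨p, -, y₀, -, h1⟩
    · exact (tr_of_shape (h1.mono k3 le_rfl) (by omega) (ρ := r') (by omega)).mono' le_rfl
        (by omega)
    · exact (tr_tip (h1.mono k3) (ρ := r') (by omega)).mono' le_rfl n4
  · intro p hp p' hp' e
    obtain ⟨q, hq, rfl⟩ := mem_image.1 hp
    obtain ⟨q', hq', rfl⟩ := mem_image.1 hp'
    have h1 := h.sep q hq q' hq' fun k => e (k ▸ rfl)
    have h2 := (hP q hq).1
    have h3 := (hP q' hq').1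
    rw [G.tdist_def, ← G.prj_sub, lft_prj]
    · simp only [zd, Prod.fst_sub, Prod.snd_sub] at h1 ⊢
      omega
    all_goals
      simp only [zd, Prod.fst_sub, Prod.snd_sub, Prod.fst_zero, Prod.snd_zero,
        Int.abs_eq_natAbs] at h2 h3 ⊢
      omega
  · rcases hl y with h1 | ⟨p, hp, y₀, h1, S₁, S₂, ν₁, ν₂, a1, a2⟩
    · exact h1.mono le_rfl (by omega)
    · have h2 := (hy _ (mem_image_of_mem _ hp)).trans h1
      obtain ⟨S, ν, b1, b2, b3⟩ := hF κ hκ.le k1 _ _ _ _ a1 y₀ ρ ((hm ρ n1).trans h2)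
      have b4 : ‖ν‖ = 1 := by
        rcases b1 with rfl | rfl
        · exact a1.n₁
        · exact a1.n₂
      have b5 : α ≤ ‖ν + ν‖ := by
        rw [← two_mul, norm_mul, b4]
        have := norm_add_le ν₁ ν₂
        rw [a1.n₁, a1.n₂] at this
        have := a1.add
        simp only [Complex.norm_ofNat]
        linarith
      refine ⟨S, S, ν, ν, b4, b4, b5, b2, b2, fun v hv => ?_⟩
      rw [a2 v (by omega), and_self, ← b3 v hv]
      refine and_iff_left ?_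
      have h3 := (hm ρ (show t + 1 ≤ N by omega)).trans h2
      have h4 : t + ρ < (t + 1) * (ρ + 1) := by nlinarith
      simp only [zd, Prod.fst_add, Prod.snd_add, Prod.fst_zero, Prod.snd_zero] at h3 hv ⊢
      omega

end Vale.Agent.P144Z
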